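import Vale.Agent.P210K.Stm

open Set Filter Topology MeasureTheory Metric
open scoped ENNReal NNReal ContDiff RealInnerProductSpace

namespace Vale.Agent.P210

namespace KIso0Aux

theorem sq_conf {n : ℕ} (w : E n → ℝ) (z v : E n) :
    Real.sqrt (∑ i, ∑ j, conf w z i j * v i * v j) = Real.exp (w z) * ‖v‖ := by
  have e : ∑ i, ∑ j, conf w z i j * v i * v j = (Real.exp (w z) * ‖v‖) ^ 2 := by
    rw [mul_pow, EuclideanSpace.real_norm_sq_eq, Finset.mul_sum]
    refine Finset.sum_congr rfl fun i _ => ?_
    rw [Finset.sum_eq_single i]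
    · simp only [conf, Matrix.smul_apply, Matrix.one_apply_eq, smul_eq_mul, mul_one]
      rw [two_mul, Real.exp_add]
      ring
    · intro j _ hj
      simp only [conf, Matrix.smul_apply, Matrix.one_apply_ne hj.symm, smul_zero, zero_mul]
    · intro hi
      exact absurd (Finset.mem_univ i) hi
  rw [e, Real.sqrt_sq (by positivity)]

end KIso0Aux

theorem pkIso0 : Iso0S := by
  intro n Ω w φ h x hx v
  rw [← KIso0Aux.sq_conf, ← KIso0Aux.sq_conf, h.2 x hx v]

end Vale.Agent.P210
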